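import Vale.Agent.P227.LpN.Slab.Facet
import Vale.Agent.P227.LpN.Slab.Partials

/-!
# P227 `LpN`, slab calculus: the first three derivatives of the volume
-/

namespace Vale.Agent.P227.LpN.Slab

open MeasureTheory Set Filter Finset Matrix
open scoped Topology

/-- Coordinate derivatives read off a derivative. -/
lemma deriv_update {ι : Type*} [Fintype ι] [DecidableEq ι] {g : (ι → ℝ) → ℝ}
    {L : (ι → ℝ) →L[ℝ] ℝ} {b : ι → ℝ} (h : HasFDerivAt g L b) (τ : ι) :
    deriv (fun s => g (Function.update b τ s)) (b τ) = L (Pi.single τ 1) := by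
  have h1 : HasFDerivAt g L (Function.update b τ (b τ)) := by rwa [Function.update_eq_self]
  exact (h1.comp_hasDerivAt (b τ) (hasDerivAt_update b τ (b τ))).deriv

/-- A derivative is the sum of its coordinate derivatives. -/
lemma hasFDerivAt_sum_deriv {ι : Type*} [Fintype ι] [DecidableEq ι] {g : (ι → ℝ) → ℝ}
    {L : (ι → ℝ) →L[ℝ] ℝ} {b : ι → ℝ} (h : HasFDerivAt g L b) :
    HasFDerivAt g (∑ τ : ι, deriv (fun s => g (Function.update b τ s)) (b τ) •
      ContinuousLinearMap.proj (R := ℝ) (φ := fun _ : ι => ℝ) τ) b := by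
  suffices e : (∑ τ : ι, deriv (fun s => g (Function.update b τ s)) (b τ) •
      ContinuousLinearMap.proj (R := ℝ) (φ := fun _ : ι => ℝ) τ) = L by rw [e]; exact h
  refine ContinuousLinearMap.ext fun v => ?_
  simp only [ContinuousLinearMap.sum_apply, _root_.smul_apply,
    ContinuousLinearMap.proj_apply, smul_eq_mul, deriv_update h]
  conv_rhs => rw [pi_eq_sum_univ' v, map_sum]
  refine Finset.sum_congr rfl fun τ _ => ?_
  rw [map_smul, smul_eq_mul, mul_comm]

variable {n N : ℕ} {u : Fin (N + 1) → Vec (n + 1)}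

lemma isOpen_width {N : ℕ} : IsOpen {b : Sd N → ℝ | Width b} := by
  have e : {b : Sd N → ℝ | Width b} = ⋂ i, {b | 0 < b (i, true) + b (i, false)} := by
    ext; simp [Width]
  rw [e]
  exact isOpen_iInter_of_finite fun i => isOpen_lt continuous_const (by fun_prop)

lemma width_mem {N : ℕ} {b : Sd N → ℝ} (hb : Width b) : ∀ᶠ y in 𝓝 b, Width y :=
  isOpen_width.mem_nhds hb

lemma width_fMap (σ : Sd (N + 1)) {b : Sd (N + 1) → ℝ} (hb : Width b) : Width (fMap u σ b) := by
  intro i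
  have := hb (σ.1.succAbove i)
  rw [fMap_eq]
  simp only [sliceB, sgn, Bool.false_eq_true, ↓reduceIte]
  linarith

/-- The facet formula for the coordinate derivative. -/
lemma hasDerivAt_vol (hu : GenPos u) (hn : 1 ≤ n) (σ : Sd (N + 1)) {b : Sd (N + 1) → ℝ}
    (hb : Width b) :
    HasDerivAt (fun s => vol u (Function.update b σ s))
      (fJac u σ.1 * vol (fNormals u σ.1) (fMap u σ b)) (b σ) := by
  obtain ⟨l, s0⟩ := σ
  set g : ℝ → ℝ := fun t => vol (fNormals u l) (sliceB u l t b) with hg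
  have hgc : Continuous g := continuous_slice hu hn l b
  have hcong : ∀ (s : ℝ) (t : ℝ),
      sliceB u l t (Function.update b (l, s0) s) = sliceB u l t b := fun s t =>
    sliceB_congr l t fun τ hτ => Function.update_of_ne (fun h => hτ (by rw [h])) s b
  have hF : ∀ x y : ℝ, ∫ t in x..y, g t = (∫ t in (0 : ℝ)..y, g t) - ∫ t in (0 : ℝ)..x, g t :=
    fun x y => (intervalIntegral.integral_interval_sub_left (hgc.intervalIntegrable _ _)
      (hgc.intervalIntegrable _ _)).symm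
  have hd : ∀ a : ℝ, HasDerivAt (fun s => ∫ t in (0 : ℝ)..s, g t) (g a) a := fun a =>
    (hgc.integral_hasStrictDerivAt 0 a).hasDerivAt
  have hl := hb l
  cases s0
  · have h2 := ((hd (-b (l, false))).comp (b (l, false)) (hasDerivAt_neg _)).const_sub
      (∫ t in (0 : ℝ)..(b (l, true)), g t)
    have h3 := h2.const_mul (fJac u l)
    have e : fJac u l * vol (fNormals u l) (fMap u (l, false) b) =
        fJac u l * -(g (-b (l, false)) * -1) := by
      simp [hg, fMap_eq, sgn]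
    rw [e]
    refine h3.congr_of_eventuallyEq ?_
    filter_upwards [lt_mem_nhds (show -b (l, true) < b (l, false) by linarith)] with s hs
    have hne : ((l, true) : Sd (N + 1)) ≠ (l, false) := by simp
    rw [vol_eq_integral hu hn l (Function.update b (l, false) s)
      (by rw [Function.update_self, Function.update_of_ne hne]; linarith), Function.update_self,
      Function.update_of_ne hne, intervalIntegral.integral_congr (g := g) fun t _ => ?_, hF]
    · rfl
    · simp only [hg, hcong s t]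
  · have h2 := (hd (b (l, true))).sub_const (∫ t in (0 : ℝ)..(-b (l, false)), g t)
    have h3 := h2.const_mul (fJac u l)
    have e : fJac u l * vol (fNormals u l) (fMap u (l, true) b) =
        fJac u l * g (b (l, true)) := by
      simp [hg, fMap_eq, sgn]
    rw [e]
    refine h3.congr_of_eventuallyEq ?_
    filter_upwards [lt_mem_nhds (show -b (l, false) < b (l, true) by linarith)] with s hs
    have hne : ((l, false) : Sd (N + 1)) ≠ (l, true) := by simp
    rw [vol_eq_integral hu hn l (Function.update b (l, true) s)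
      (by rw [Function.update_self, Function.update_of_ne hne]; linarith), Function.update_self,
      Function.update_of_ne hne, intervalIntegral.integral_congr (g := g) fun t _ => ?_, hF]
    simp only [hg, hcong s t]

lemma area_eq (hu : GenPos u) (hn : 1 ≤ n) (σ : Sd (N + 1)) {b : Sd (N + 1) → ℝ} (hb : Width b) :
    area u b σ = fJac u σ.1 * vol (fNormals u σ.1) (fMap u σ b) :=
  (hasDerivAt_vol hu hn σ hb).deriv

lemma area_eventuallyEq (hu : GenPos u) (hn : 1 ≤ n) (σ : Sd (N + 1)) {b : Sd (N + 1) → ℝ}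
    (hb : Width b) :
    (fun y => area u y σ) =ᶠ[𝓝 b] fun y => fJac u σ.1 * vol (fNormals u σ.1) (fMap u σ y) :=
  (width_mem hb).mono fun _ hy => area_eq hu hn σ hy

lemma continuousAt_area (hu : GenPos u) (hn : 1 ≤ n) (σ : Sd (N + 1)) {b : Sd (N + 1) → ℝ}
    (hb : Width b) : ContinuousAt (fun y => area u y σ) b :=
  ((continuous_const.mul ((continuous_vol (genPos_fNormals hu σ.1) hn).comp
    (fMap u σ).continuous_of_finiteDimensional)).continuousAt).congr
    (area_eventuallyEq hu hn σ hb).symm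

lemma area_nonneg (hu : GenPos u) (hn : 1 ≤ n) (σ : Sd (N + 1)) {b : Sd (N + 1) → ℝ}
    (hb : Width b) : 0 ≤ area u b σ := by
  rw [area_eq hu hn σ hb]
  exact mul_nonneg (inv_nonneg.2 (abs_nonneg _)) (vol_nonneg _)

lemma hasFDerivAt_vol (hu : GenPos u) (hn : 1 ≤ n) {b : Sd (N + 1) → ℝ} (hb : Width b) :
    HasFDerivAt (vol u) (∑ σ, area u b σ • ContinuousLinearMap.proj (R := ℝ) (φ := fun _ : Sd (N + 1) => ℝ) σ) b :=
  hasFDerivAt_of_partials (d := fun σ y => area u y σ) isOpen_width hb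
    (fun g hg σ => by
      have h := hasDerivAt_vol hu hn σ hg
      rwa [← area_eq hu hn σ hg] at h)
    fun σ => continuousAt_area hu hn σ hb

lemma euler_vol (hu : GenPos u) (hn : 1 ≤ n) {b : Sd (N + 1) → ℝ} (hb : Width b) :
    ∑ σ, area u b σ * b σ = (n + 1) * vol u b := by
  have h1 : HasDerivAt (fun c : ℝ => vol u (c • b)) (∑ σ, area u b σ * b σ) 1 := by
    have hd : HasDerivAt (fun c : ℝ => c • b) b 1 := by
      simpa using (hasDerivAt_id (1 : ℝ)).smul_const b
    have hf : HasFDerivAt (vol u) (∑ σ, area u b σ • ContinuousLinearMap.proj (R := ℝ) (φ := fun _ : Sd (N + 1) => ℝ) σ)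
        ((1 : ℝ) • b) := by rw [one_smul]; exact hasFDerivAt_vol hu hn hb
    refine (hf.comp_hasDerivAt 1 hd).congr_deriv ?_
    simp
  have h2 : HasDerivAt (fun c : ℝ => vol u (c • b)) ((n + 1) * vol u b) 1 := by
    have := (hasDerivAt_pow (n + 1) (1 : ℝ)).mul_const (vol u b)
    simp only [one_pow, mul_one, Nat.cast_add, Nat.cast_one] at this
    refine this.congr_of_eventuallyEq ?_
    filter_upwards [lt_mem_nhds zero_lt_one] with c hc using vol_smul b hc
  exact h1.unique h2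

/-- The derivative of `area` through the facet. -/
noncomputable def areaD (u : Fin (N + 1) → Vec (n + 1)) (b : Sd (N + 1) → ℝ) (σ : Sd (N + 1)) :
    (Sd (N + 1) → ℝ) →L[ℝ] ℝ :=
  fJac u σ.1 • (∑ ρ, area (fNormals u σ.1) (fMap u σ b) ρ •
    ContinuousLinearMap.proj (R := ℝ) (φ := fun _ : Sd N => ℝ) ρ).comp (LinearMap.toContinuousLinearMap (fMap u σ))

lemma areaD_apply (b : Sd (N + 1) → ℝ) (σ : Sd (N + 1)) (v : Sd (N + 1) → ℝ) :
    areaD u b σ v = fJac u σ.1 * ∑ ρ, area (fNormals u σ.1) (fMap u σ b) ρ * fMap u σ v ρ := by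
  simp [areaD]

/-- The facts used for a facet as a body of its own. -/
lemma facet_facts (hu : GenPos u) (hn : 2 ≤ n) (l : Fin (N + 1)) :
    ∀ c : Sd N → ℝ, Width c →
      HasFDerivAt (vol (fNormals u l))
        (∑ ρ, area (fNormals u l) c ρ • ContinuousLinearMap.proj (R := ℝ) (φ := fun _ : Sd N => ℝ) ρ) c ∧
      (∀ ρ, ContinuousAt (fun y => area (fNormals u l) y ρ) c) ∧
      ∀ ρ, 0 ≤ area (fNormals u l) c ρ := by
  obtain ⟨m, rfl⟩ : ∃ m, n = m + 1 := ⟨n - 1, by omega⟩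
  obtain ⟨M, rfl⟩ : ∃ M, N = M + 1 := ⟨N - 1, by have := hu.1; omega⟩
  intro c hc
  exact ⟨hasFDerivAt_vol (genPos_fNormals hu l) (by omega) hc,
    fun ρ => continuousAt_area (genPos_fNormals hu l) (by omega) ρ hc,
    fun ρ => area_nonneg (genPos_fNormals hu l) (by omega) ρ hc⟩

lemma hasFDerivAt_area_aux (hu : GenPos u) (hn : 2 ≤ n) (σ : Sd (N + 1)) {b : Sd (N + 1) → ℝ}
    (hb : Width b) : HasFDerivAt (fun y => area u y σ) (areaD u b σ) b := by
  have h := (facet_facts hu hn σ.1 _ (width_fMap σ hb)).1.comp b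
    (LinearMap.toContinuousLinearMap (fMap u σ)).hasFDerivAt
  exact (h.const_mul (fJac u σ.1)).congr_of_eventuallyEq (area_eventuallyEq hu (by omega) σ hb)

lemma hess_eq (hu : GenPos u) (hn : 2 ≤ n) (σ τ : Sd (N + 1)) {b : Sd (N + 1) → ℝ}
    (hb : Width b) : hess u b σ τ = fJac u σ.1 *
      ∑ ρ, area (fNormals u σ.1) (fMap u σ b) ρ * fMap u σ (Pi.single τ 1) ρ := by
  rw [← areaD_apply]
  exact deriv_update (hasFDerivAt_area_aux hu hn σ hb) τ

lemma hasFDerivAt_area (hu : GenPos u) (hn : 2 ≤ n) (σ : Sd (N + 1)) {b : Sd (N + 1) → ℝ}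
    (hb : Width b) : HasFDerivAt (fun y => area u y σ)
      (∑ τ, hess u b σ τ • ContinuousLinearMap.proj (R := ℝ) (φ := fun _ : Sd (N + 1) => ℝ) τ) b :=
  hasFDerivAt_sum_deriv (hasFDerivAt_area_aux hu hn σ hb)

lemma hess_eventuallyEq (hu : GenPos u) (hn : 2 ≤ n) (σ τ : Sd (N + 1)) {b : Sd (N + 1) → ℝ}
    (hb : Width b) :
    (fun y => hess u y σ τ) =ᶠ[𝓝 b] fun y => fJac u σ.1 *
      ∑ ρ, area (fNormals u σ.1) (fMap u σ y) ρ * fMap u σ (Pi.single τ 1) ρ :=
  (width_mem hb).mono fun _ hy => hess_eq hu hn σ τ hy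

lemma continuousAt_hess (hu : GenPos u) (hn : 2 ≤ n) (σ τ : Sd (N + 1)) {b : Sd (N + 1) → ℝ}
    (hb : Width b) : ContinuousAt (fun y => hess u y σ τ) b := by
  refine ContinuousAt.congr ?_ (hess_eventuallyEq hu hn σ τ hb).symm
  refine continuousAt_const.mul (tendsto_finsetSum _ fun ρ _ => ?_)
  refine ContinuousAt.mul ?_ continuousAt_const
  exact ContinuousAt.comp (g := fun c => area (fNormals u σ.1) c ρ)
    ((facet_facts hu hn σ.1 _ (width_fMap σ hb)).2.1 ρ)
    (fMap u σ).continuous_of_finiteDimensional.continuousAt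

lemma hess_symm (hu : GenPos u) (hn : 2 ≤ n) (σ τ : Sd (N + 1)) {b : Sd (N + 1) → ℝ}
    (hb : Width b) : hess u b σ τ = hess u b τ σ := by
  set f' : (Sd (N + 1) → ℝ) → ((Sd (N + 1) → ℝ) →L[ℝ] ℝ) :=
    fun y => ∑ ρ, area u y ρ • ContinuousLinearMap.proj (R := ℝ) (φ := fun _ : Sd (N + 1) => ℝ) ρ
  have h1 : ∀ᶠ y in 𝓝 b, HasFDerivAt (vol u) (f' y) y :=
    (width_mem hb).mono fun y hy => hasFDerivAt_vol hu (by omega) hy
  have h2 : HasFDerivAt f' (∑ ρ, (∑ π, hess u b ρ π • ContinuousLinearMap.proj (R := ℝ) (φ := fun _ : Sd (N + 1) => ℝ) π).smulRight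
      (ContinuousLinearMap.proj (R := ℝ) (φ := fun _ : Sd (N + 1) => ℝ) ρ)) b :=
    HasFDerivAt.fun_sum fun ρ _ => (hasFDerivAt_area hu hn ρ hb).smul_const
      (ContinuousLinearMap.proj (R := ℝ) (φ := fun _ : Sd (N + 1) => ℝ) ρ)
  have h := second_derivative_symmetric_of_eventually h1 h2 (Pi.single τ 1) (Pi.single σ 1)
  simpa [Pi.single_apply] using h

lemma hess_nonneg (hu : GenPos u) (hn : 2 ≤ n) {σ τ : Sd (N + 1)} (hστ : σ.1 ≠ τ.1)
    {b : Sd (N + 1) → ℝ} (hb : Width b) : 0 ≤ hess u b σ τ := by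
  rw [hess_eq hu hn σ τ hb]
  refine mul_nonneg (inv_nonneg.2 (abs_nonneg _)) (Finset.sum_nonneg fun ρ _ => ?_)
  refine mul_nonneg ((facet_facts hu hn σ.1 _ (width_fMap σ hb)).2.2 ρ) ?_
  have hne : σ ≠ τ := fun h => hστ (by rw [h])
  simp only [fMap, LinearMap.coe_mk, AddHom.coe_mk, Pi.single_eq_of_ne hne, mul_zero, sub_zero,
    Pi.single_apply]
  split_ifs <;> norm_num

/-- Second order facts used for a facet as a body of its own. -/
lemma facet_facts2 (hu : GenPos u) (hn : 3 ≤ n) (l : Fin (N + 1)) :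
    ∀ c : Sd N → ℝ, Width c →
      (∀ ρ, HasFDerivAt (fun y => area (fNormals u l) y ρ)
        (∑ π, hess (fNormals u l) c ρ π • ContinuousLinearMap.proj (R := ℝ) (φ := fun _ : Sd N => ℝ) π) c) ∧
      ∀ ρ π, ContinuousAt (fun y => hess (fNormals u l) y ρ π) c := by
  obtain ⟨m, rfl⟩ : ∃ m, n = m + 1 := ⟨n - 1, by omega⟩
  obtain ⟨M, rfl⟩ : ∃ M, N = M + 1 := ⟨N - 1, by have := hu.1; omega⟩
  intro c hc
  exact ⟨fun ρ => hasFDerivAt_area (genPos_fNormals hu l) (by omega) ρ hc,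
    fun ρ π => continuousAt_hess (genPos_fNormals hu l) (by omega) ρ π hc⟩

/-- The derivative of `hess` through the facet. -/
noncomputable def hessD (u : Fin (N + 1) → Vec (n + 1)) (b : Sd (N + 1) → ℝ)
    (σ τ : Sd (N + 1)) : (Sd (N + 1) → ℝ) →L[ℝ] ℝ :=
  fJac u σ.1 • ∑ ρ, fMap u σ (Pi.single τ 1) ρ •
    (∑ π, hess (fNormals u σ.1) (fMap u σ b) ρ π • ContinuousLinearMap.proj (R := ℝ) (φ := fun _ : Sd N => ℝ) π).comp
      (LinearMap.toContinuousLinearMap (fMap u σ))

lemma hasFDerivAt_hess_aux (hu : GenPos u) (hn : 3 ≤ n) (σ τ : Sd (N + 1))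
    {b : Sd (N + 1) → ℝ} (hb : Width b) :
    HasFDerivAt (fun y => hess u y σ τ) (hessD u b σ τ) b := by
  refine ((HasFDerivAt.fun_sum fun ρ _ => ?_).const_mul (fJac u σ.1)).congr_of_eventuallyEq
    (hess_eventuallyEq hu (by omega) σ τ hb)
  exact ((((facet_facts2 hu hn σ.1 _ (width_fMap σ hb)).1 ρ).comp b
    (LinearMap.toContinuousLinearMap (fMap u σ)).hasFDerivAt).mul_const _)

lemma d3_eq (hu : GenPos u) (hn : 3 ≤ n) (σ τ χ : Sd (N + 1)) {b : Sd (N + 1) → ℝ}
    (hb : Width b) : d3 u b σ τ χ = fJac u σ.1 * ∑ ρ, fMap u σ (Pi.single τ 1) ρ *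
      ∑ π, hess (fNormals u σ.1) (fMap u σ b) ρ π * fMap u σ (Pi.single χ 1) π := by
  refine (deriv_update (hasFDerivAt_hess_aux hu hn σ τ hb) χ).trans ?_
  simp [hessD]

lemma hasFDerivAt_hess (hu : GenPos u) (hn : 3 ≤ n) (σ τ : Sd (N + 1)) {b : Sd (N + 1) → ℝ}
    (hb : Width b) : HasFDerivAt (fun y => hess u y σ τ)
      (∑ χ, d3 u b σ τ χ • ContinuousLinearMap.proj (R := ℝ) (φ := fun _ : Sd (N + 1) => ℝ) χ) b :=
  hasFDerivAt_sum_deriv (hasFDerivAt_hess_aux hu hn σ τ hb)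

lemma continuousAt_d3 (hu : GenPos u) (hn : 3 ≤ n) (σ τ χ : Sd (N + 1)) {b : Sd (N + 1) → ℝ}
    (hb : Width b) : ContinuousAt (fun y => d3 u y σ τ χ) b := by
  refine ContinuousAt.congr ?_ ((width_mem hb).mono fun y hy => (d3_eq hu hn σ τ χ hy).symm)
  refine continuousAt_const.mul (tendsto_finsetSum _ fun ρ _ => ?_)
  refine continuousAt_const.mul (tendsto_finsetSum _ fun π _ => ?_)
  refine ContinuousAt.mul ?_ continuousAt_const
  exact ContinuousAt.comp (g := fun c => hess (fNormals u σ.1) c ρ π)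
    ((facet_facts2 hu hn σ.1 _ (width_fMap σ hb)).2 ρ π)
    (fMap u σ).continuous_of_finiteDimensional.continuousAt

end Vale.Agent.P227.LpN.Slab
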