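import Vale.Agent.P227.LpN.Defs

/-!
# P227 `LpN`, slab calculus: boundedness, continuity and symmetries of the volume
-/

namespace Vale.Agent.P227.LpN.Slab

open MeasureTheory Set Filter Finset Matrix
open scoped Topology Pointwise

variable {n N : ℕ} {u : Fin N → Vec n}

lemma exists_emb (hnN : n ≤ N) (hn : 1 ≤ n) (i : Fin N) :
    ∃ e : Fin n ↪ Fin N, ∃ k, e k = i := by
  set k : Fin n := ⟨0, hn⟩
  refine ⟨⟨fun j => Equiv.swap (Fin.castLE hnN k) i (Fin.castLE hnN j),
    (Equiv.injective _).comp (Fin.castLE_injective hnN)⟩, k, ?_⟩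
  exact Equiv.swap_apply_left _ _

lemma u_ne_zero (hu : GenPos u) (hn : 1 ≤ n) (i : Fin N) : u i ≠ 0 := by
  obtain ⟨e, k, hk⟩ := exists_emb hu.1.le hn i
  rw [← hk]
  exact (hu.2 e).ne_zero k

lemma nrm_ne_zero (hu : GenPos u) (hn : 1 ≤ n) (σ : Sd N) : nrm u σ ≠ 0 := by
  refine smul_ne_zero ?_ (u_ne_zero hu hn σ.1)
  unfold sgn; split_ifs <;> norm_num

lemma dot_nrm_true (x : Vec n) (i : Fin N) : x ⬝ᵥ nrm u (i, true) = x ⬝ᵥ u i := by
  simp [nrm, sgn]

lemma dot_nrm_false (x : Vec n) (i : Fin N) : x ⬝ᵥ nrm u (i, false) = -(x ⬝ᵥ u i) := by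
  simp [nrm, sgn]

lemma isClosed_body (b : Sd N → ℝ) : IsClosed (body u b) := by
  have e : body u b = ⋂ σ, {x | x ⬝ᵥ nrm u σ ≤ b σ} := by ext; simp [body]
  rw [e]
  exact isClosed_iInter fun σ => isClosed_le (by unfold dotProduct; fun_prop) continuous_const

lemma abs_dot_le {b : Sd N → ℝ} {x : Vec n} (hx : x ∈ body u b) (i : Fin N) :
    |x ⬝ᵥ u i| ≤ ‖b‖ := by
  have h1 := hx (i, true)
  have h2 := hx (i, false)
  rw [dot_nrm_true] at h1
  rw [dot_nrm_false] at h2
  have h3 := (le_abs_self _).trans (norm_le_pi_norm b (i, true))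
  have h4 := (le_abs_self _).trans (norm_le_pi_norm b (i, false))
  exact abs_le.2 ⟨by linarith, by linarith⟩

lemma exists_bound (hu : GenPos u) :
    ∃ C : ℝ, ∀ b : Sd N → ℝ, ∀ x ∈ body u b, ‖x‖ ≤ C * ‖b‖ := by
  set e : Fin n ↪ Fin N := Fin.castLEEmb hu.1.le
  set T : Vec n →ₗ[ℝ] Vec n :=
    { toFun := fun x k => x ⬝ᵥ u (e k)
      map_add' := fun x y => funext fun k => add_dotProduct x y _
      map_smul' := fun c x => funext fun k => smul_dotProduct c x _ } with hT
  have hker : LinearMap.ker T = ⊥ := by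
    rw [LinearMap.ker_eq_bot']
    intro x hx
    have hspan : Submodule.span ℝ (Set.range fun k => u (e k)) = ⊤ :=
      (hu.2 e).span_eq_top_of_card_eq_finrank' (by simp)
    set φ : Vec n →ₗ[ℝ] ℝ :=
      { toFun := fun y => x ⬝ᵥ y
        map_add' := dotProduct_add x
        map_smul' := fun c y => dotProduct_smul c x y }
    have hle : Submodule.span ℝ (Set.range fun k => u (e k)) ≤ LinearMap.ker φ := by
      rw [Submodule.span_le]
      rintro _ ⟨k, rfl⟩
      exact congrFun hx k
    rw [hspan] at hle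
    exact dotProduct_self_eq_zero.1 (hle (Submodule.mem_top (x := x)))
  obtain ⟨K, -, hK⟩ := T.exists_antilipschitzWith hker
  refine ⟨K, fun b x hx => ?_⟩
  have h := hK.le_mul_dist x 0
  rw [dist_zero_right, map_zero, dist_zero_right] at h
  refine h.trans (mul_le_mul_of_nonneg_left ?_ K.2)
  exact (pi_norm_le_iff_of_nonneg (norm_nonneg _)).2 fun k => abs_dot_le hx (e k)

lemma isCompact_body (hu : GenPos u) (b : Sd N → ℝ) : IsCompact (body u b) := by
  obtain ⟨C, hC⟩ := exists_bound hu
  refine Metric.isCompact_of_isClosed_isBounded (isClosed_body b) ?_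
  exact (Metric.isBounded_closedBall (x := 0) (r := C * ‖b‖)).subset fun x hx =>
    mem_closedBall_zero_iff.2 (hC b x hx)

lemma volume_body_ne_top (hu : GenPos u) (b : Sd N → ℝ) : volume (body u b) ≠ ⊤ :=
  (isCompact_body hu b).measure_lt_top.ne

lemma vol_nonneg (b : Sd N → ℝ) : 0 ≤ vol u b := ENNReal.toReal_nonneg

/-- A linear form. -/
def dotR (v : Vec n) : Vec n →ₗ[ℝ] ℝ where
  toFun x := x ⬝ᵥ v
  map_add' x y := add_dotProduct x y v
  map_smul' c x := smul_dotProduct c x v

lemma null_hyperplane {v : Vec n} (hv : v ≠ 0) (a : ℝ) :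
    volume {x : Vec n | x ⬝ᵥ v = a} = 0 := by
  have hker : LinearMap.ker (dotR v) ≠ ⊤ := fun h => by
    have : v ∈ LinearMap.ker (dotR v) := by rw [h]; trivial
    exact hv (dotProduct_self_eq_zero.1 this)
  have h0 : volume (LinearMap.ker (dotR v) : Set (Vec n)) = 0 :=
    Measure.addHaar_submodule volume _ hker
  by_cases h : ∃ x0 : Vec n, x0 ⬝ᵥ v = a
  · obtain ⟨x0, hx0⟩ := h
    have e : {x : Vec n | x ⬝ᵥ v = a} =
        (fun x => x + -x0) ⁻¹' (LinearMap.ker (dotR v) : Set (Vec n)) := by
      ext x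
      simp [dotR, LinearMap.mem_ker, add_dotProduct, neg_dotProduct, hx0, sub_eq_zero,
        ← sub_eq_add_neg]
    rw [e, measure_preimage_add_right, h0]
  · push Not at h
    have e : {x : Vec n | x ⬝ᵥ v = a} = ∅ := Set.eq_empty_of_forall_notMem fun x hx => h x hx
    rw [e, measure_empty]

lemma continuous_vol (hu : GenPos u) (hn : 1 ≤ n) : Continuous (vol u) := by
  obtain ⟨C, hC⟩ := exists_bound hu
  have e : vol u = fun b => ∫ x, (body u b).indicator (fun _ => (1 : ℝ)) x := by
    funext b
    rw [integral_indicator (isClosed_body b).measurableSet]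
    simp [vol, Measure.real]
  rw [e, continuous_iff_continuousAt]
  intro b0
  set R := |C| * (‖b0‖ + 1)
  refine continuousAt_of_dominated (bound := (Metric.closedBall (0 : Vec n) R).indicator fun _ => 1)
    (Eventually.of_forall fun b =>
      (aestronglyMeasurable_const.indicator (isClosed_body b).measurableSet)) ?_ ?_ ?_
  · filter_upwards [Metric.ball_mem_nhds b0 one_pos] with b hb
    refine Eventually.of_forall fun x => ?_
    by_cases hx : x ∈ body u b
    · have hbn : ‖b‖ ≤ ‖b0‖ + 1 := by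
        have := norm_le_norm_add_norm_sub' b b0
        rw [Metric.mem_ball, dist_eq_norm] at hb
        linarith
      have hR : x ∈ Metric.closedBall (0 : Vec n) R := mem_closedBall_zero_iff.2
        ((hC b x hx).trans ((mul_le_mul_of_nonneg_right (le_abs_self C) (norm_nonneg _)).trans
          (mul_le_mul_of_nonneg_left hbn (abs_nonneg C))))
      simp [hx, hR]
    · simp only [Set.indicator_of_notMem hx, norm_zero]
      exact Set.indicator_nonneg (fun _ _ => zero_le_one) x
  · exact (integrableOn_const (C := (1 : ℝ)) measure_closedBall_lt_top.ne).integrable_indicator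
      measurableSet_closedBall
  · have hnull : ∀ᵐ x : Vec n, ∀ σ, x ⬝ᵥ nrm u σ ≠ b0 σ := by
      rw [ae_all_iff]
      intro σ
      exact measure_mono_null (fun x hx => by simpa using hx)
        (null_hyperplane (nrm_ne_zero hu hn σ) (b0 σ))
    filter_upwards [hnull] with x hx
    by_cases hxb : x ∈ body u b0
    · have hev : ∀ᶠ b in 𝓝 b0, x ∈ body u b := by
        refine (eventually_all.2 fun σ => ?_).mono fun b hb => hb
        exact (((continuous_apply σ).tendsto b0).eventually
          (lt_mem_nhds ((hxb σ).lt_of_ne (hx σ)))).mono fun b h => h.le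
      exact (tendsto_const_nhds (x := (1 : ℝ))).congr' (hev.mono fun b hb => by simp [hb]) |>.trans
        (by simp [hxb])
    · obtain ⟨σ, hσ⟩ : ∃ σ, b0 σ < x ⬝ᵥ nrm u σ := by
        by_contra h
        push Not at h
        exact hxb h
      have hev : ∀ᶠ b in 𝓝 b0, x ∉ body u b :=
        (((continuous_apply σ).tendsto b0).eventually (gt_mem_nhds hσ)).mono fun b hb h =>
          absurd (h σ) (not_le.2 hb)
      exact (tendsto_const_nhds (x := (0 : ℝ))).congr' (hev.mono fun b hb => by simp [hb]) |>.trans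
        (by simp [hxb])

lemma body_smul (b : Sd N → ℝ) {c : ℝ} (hc : 0 < c) : body u (c • b) = c • body u b := by
  ext x
  rw [mem_smul_set_iff_inv_smul_mem₀ hc.ne']
  refine forall_congr' fun σ => ?_
  rw [smul_dotProduct, smul_eq_mul, inv_mul_le_iff₀ hc, Pi.smul_apply, smul_eq_mul]

lemma vol_smul (b : Sd N → ℝ) {c : ℝ} (hc : 0 < c) : vol u (c • b) = c ^ n * vol u b := by
  unfold vol
  rw [body_smul b hc, Measure.addHaar_smul_of_nonneg volume hc.le, ENNReal.toReal_mul,
    ENNReal.toReal_ofReal (by positivity)]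
  simp

lemma vol_transl (b : Sd N → ℝ) (a : Vec n) : vol u (b + transl u a) = vol u b := by
  have e : body u (b + transl u a) = (fun x => x + -a) ⁻¹' body u b := by
    ext x
    refine forall_congr' fun σ => ?_
    simp only [transl, Pi.add_apply, add_dotProduct, neg_dotProduct]
    constructor <;> intro h <;> linarith
  unfold vol
  rw [e, measure_preimage_add_right]

lemma vol_flipB (b : Sd N → ℝ) : vol u (flipB b) = vol u b := by
  have e : body u (flipB b) = -body u b := by
    ext x
    simp only [Set.mem_neg, body, Set.mem_ofPred_eq, flipB]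
    constructor
    · intro h ⟨i, s⟩
      have := h (i, !s)
      cases s <;> simpa [nrm, sgn] using this
    · intro h ⟨i, s⟩
      have := h (i, !s)
      cases s <;> simpa [nrm, sgn] using this
  unfold vol
  rw [e, Measure.measure_neg]

lemma vol_pos (hu : GenPos u) {b : Sd N → ℝ} (h : HasInt u b) : 0 < vol u b := by
  obtain ⟨x, hx⟩ := h
  set O : Set (Vec n) := ⋂ σ, {y | y ⬝ᵥ nrm u σ < b σ} with hO
  have hOo : IsOpen O := isOpen_iInter_of_finite fun σ =>
    isOpen_lt (by unfold dotProduct; fun_prop) continuous_const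
  have hne : O.Nonempty := ⟨x, Set.mem_iInter.2 hx⟩
  refine ENNReal.toReal_pos (ne_of_gt ?_) (volume_body_ne_top hu b)
  exact (hOo.measure_pos volume hne).trans_le
    (measure_mono fun y hy σ => (Set.mem_iInter.1 hy σ).le)

end Vale.Agent.P227.LpN.Slab
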