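import Vale.Agent.P227.LpN.Slab.Basic

/-!
# P227 `LpN`, slab calculus: facets, and the volume as an integral over parallel slices
-/

namespace Vale.Agent.P227.LpN.Slab

open MeasureTheory Set Filter Finset Matrix
open scoped Topology ENNReal

variable {n N : ℕ} {u : Fin (N + 1) → Vec (n + 1)}

lemma pivot_ne (hu : GenPos u) (l : Fin (N + 1)) : u l (pivot (u l)) ≠ 0 := by
  have h : ∃ j, u l j ≠ 0 := by
    by_contra h
    push Not at h
    exact u_ne_zero hu (Nat.succ_le_succ (Nat.zero_le n)) l (funext h)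
  rw [pivot, dif_pos h]
  exact h.choose_spec

/-- The facet coordinates. -/
noncomputable def rest (u : Fin (N + 1) → Vec (n + 1)) (l : Fin (N + 1)) (x : Vec (n + 1)) :
    Vec n := (pivot (u l)).removeNth x

lemma dot_split (hu : GenPos u) (l : Fin (N + 1)) (i : Fin N) (x : Vec (n + 1)) :
    x ⬝ᵥ u (l.succAbove i) =
      fCoef u l (l.succAbove i) * (x ⬝ᵥ u l) + rest u l x ⬝ᵥ fNormals u l i := by
  have hp := pivot_ne hu l
  set p := pivot (u l) with hpdef
  simp only [dotProduct, rest, Fin.removeNth, ← hpdef]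
  rw [Fin.sum_univ_succAbove _ p, Fin.sum_univ_succAbove (fun j => x j * u l j) p, mul_add,
    Finset.mul_sum]
  have e : ∀ k, x (p.succAbove k) * u (l.succAbove i) (p.succAbove k) =
      fCoef u l (l.succAbove i) * (x (p.succAbove k) * u l (p.succAbove k)) +
        x (p.succAbove k) * fNormals u l i k := fun k => by
    simp only [fNormals, ← hpdef]; ring
  rw [Finset.sum_congr rfl fun k _ => e k, Finset.sum_add_distrib]
  have e2 : fCoef u l (l.succAbove i) * u l p = u (l.succAbove i) p := by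
    rw [fCoef, ← hpdef, div_mul_cancel₀ _ hp]
  rw [← e2]
  ring

lemma genPos_fNormals (hu : GenPos u) (l : Fin (N + 1)) : GenPos (fNormals u l) := by
  refine ⟨by have := hu.1; omega, fun e => ?_⟩
  have hp := pivot_ne hu l
  set p := pivot (u l) with hpdef
  set E : Fin (n + 1) ↪ Fin (N + 1) := ⟨Fin.cons l fun k => l.succAbove (e k), by
    rw [Fin.cons_injective_iff]
    refine ⟨?_, fun a b h => e.injective (Fin.succAbove_right_injective h)⟩
    rintro ⟨k, hk⟩
    exact Fin.succAbove_ne l (e k) hk⟩ with hE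
  have hind := Fintype.linearIndependent_iff.1 (hu.2 E)
  rw [Fintype.linearIndependent_iff]
  intro g hg k
  set c0 : ℝ := -∑ m, g m * fCoef u l (l.succAbove (e m)) with hc0
  have h0 := hind (Fin.cons c0 g) (by
    rw [Fin.sum_univ_succ]
    simp only [hE, Function.Embedding.coeFn_mk, Fin.cons_zero, Fin.cons_succ]
    funext j
    simp only [Pi.add_apply, Finset.sum_apply, Pi.smul_apply, smul_eq_mul, Pi.zero_apply]
    rcases eq_or_ne j p with rfl | hj
    · have : ∀ m, g m * u (l.succAbove (e m)) p =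
          g m * fCoef u l (l.succAbove (e m)) * u l p := fun m => by
        rw [mul_assoc, fCoef, ← hpdef, div_mul_cancel₀ _ hp]
      rw [Finset.sum_congr rfl fun m _ => this m, ← Finset.sum_mul, hc0]
      ring
    · obtain ⟨k', rfl⟩ := Fin.exists_succAbove_eq hj
      have h := congrFun hg k'
      simp only [Finset.sum_apply, Pi.smul_apply, smul_eq_mul, fNormals, ← hpdef, mul_sub,
        Finset.sum_sub_distrib, Pi.zero_apply] at h
      rw [hc0, neg_mul, Finset.sum_mul]
      simp only [mul_assoc]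
      linarith) k.succ
  simpa using h0

/-- The bounds of the slice `x ⬝ᵥ u l = t`. -/
noncomputable def sliceB (u : Fin (N + 1) → Vec (n + 1)) (l : Fin (N + 1)) (t : ℝ)
    (b : Sd (N + 1) → ℝ) (τ : Sd N) : ℝ :=
  b (l.succAbove τ.1, τ.2) - sgn τ.2 * fCoef u l (l.succAbove τ.1) * t

lemma fMap_eq (σ : Sd (N + 1)) (b : Sd (N + 1) → ℝ) :
    fMap u σ b = sliceB u σ.1 (sgn σ.2 * b σ) b := rfl

lemma sliceB_congr (l : Fin (N + 1)) (t : ℝ) {b b' : Sd (N + 1) → ℝ}
    (h : ∀ τ : Sd (N + 1), τ.1 ≠ l → b τ = b' τ) : sliceB u l t b = sliceB u l t b' := by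
  funext τ
  simp only [sliceB, h (l.succAbove τ.1, τ.2) (Fin.succAbove_ne l τ.1)]

lemma continuous_sliceB (l : Fin (N + 1)) (b : Sd (N + 1) → ℝ) :
    Continuous fun t => sliceB u l t b :=
  continuous_pi fun τ => by unfold sliceB; fun_prop

lemma mem_body_iff (hu : GenPos u) (l : Fin (N + 1)) (b : Sd (N + 1) → ℝ) (x : Vec (n + 1)) :
    x ∈ body u b ↔ x ⬝ᵥ u l ∈ Set.Icc (-b (l, false)) (b (l, true)) ∧
      rest u l x ∈ body (fNormals u l) (sliceB u l (x ⬝ᵥ u l) b) := by
  have key : ∀ τ : Sd N, rest u l x ⬝ᵥ nrm (fNormals u l) τ ≤ sliceB u l (x ⬝ᵥ u l) b τ ↔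
      x ⬝ᵥ nrm u (l.succAbove τ.1, τ.2) ≤ b (l.succAbove τ.1, τ.2) := fun τ => by
    simp only [sliceB, nrm, dotProduct_smul, smul_eq_mul, dot_split hu l τ.1 x, mul_add,
      mul_assoc]
    constructor <;> intro h <;> linarith
  constructor
  · intro h
    have h1 := h (l, true)
    have h2 := h (l, false)
    rw [dot_nrm_true] at h1
    rw [dot_nrm_false] at h2
    exact ⟨⟨by linarith, h1⟩, fun τ => (key τ).2 (h _)⟩
  · rintro ⟨⟨h1, h2⟩, h3⟩ ⟨i, s⟩
    rcases eq_or_ne i l with rfl | hi
    · cases s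
      · rw [dot_nrm_false]; linarith
      · rw [dot_nrm_true]; exact h2
    · obtain ⟨i', rfl⟩ := Fin.exists_succAbove_eq hi
      exact (key (i', s)).1 (h3 (i', s))

lemma continuous_slice (hu : GenPos u) (hn : 1 ≤ n) (l : Fin (N + 1)) (b : Sd (N + 1) → ℝ) :
    Continuous fun t => vol (fNormals u l) (sliceB u l t b) :=
  (continuous_vol (genPos_fNormals hu l) hn).comp (continuous_sliceB l b)

/-- Fubini along `x ⬝ᵥ u l`. -/
lemma vol_eq_integral (hu : GenPos u) (hn : 1 ≤ n) (l : Fin (N + 1)) (b : Sd (N + 1) → ℝ)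
    (hb : -b (l, false) ≤ b (l, true)) :
    vol u b = fJac u l *
      ∫ t in (-b (l, false))..(b (l, true)), vol (fNormals u l) (sliceB u l t b) := by
  set p := pivot (u l) with hp
  set a := u l p with ha
  have ha0 : a ≠ 0 := pivot_ne hu l
  set d : Vec n → ℝ := fun y => ∑ k, y k * u l (p.succAbove k) with hd
  set G : Set (ℝ × Vec n) := {q | q.1 ∈ Set.Icc (-b (l, false)) (b (l, true)) ∧
    q.2 ∈ body (fNormals u l) (sliceB u l q.1 b)} with hG
  have hGc : IsClosed G := by
    refine (isClosed_Icc.preimage continuous_fst).inter ?_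
    have e : {q : ℝ × Vec n | q.2 ∈ body (fNormals u l) (sliceB u l q.1 b)} =
        ⋂ τ, {q : ℝ × Vec n | q.2 ⬝ᵥ nrm (fNormals u l) τ ≤ sliceB u l q.1 b τ} := by
      ext q; simp [body]
    show IsClosed {q : ℝ × Vec n | q.2 ∈ body (fNormals u l) (sliceB u l q.1 b)}
    rw [e]
    refine isClosed_iInter fun τ => isClosed_le ?_ ?_
    · unfold dotProduct; fun_prop
    · unfold sliceB; fun_prop
  set S : Set (ℝ × Vec n) := (fun q => (a * q.1 + d q.2, q.2)) ⁻¹' G with hS
  have hdc : Continuous d := by fun_prop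
  have hSm : MeasurableSet S := (hGc.preimage (by fun_prop)).measurableSet
  have hbody : body u b = MeasurableEquiv.piFinSuccAbove (fun _ : Fin (n + 1) => ℝ) p ⁻¹' S := by
    ext x
    have hdot : a * x p + d (p.removeNth x) = x ⬝ᵥ u l := by
      rw [dotProduct, Fin.sum_univ_succAbove _ p]
      simp only [hd, Fin.removeNth, ha]
      ring
    have happ : MeasurableEquiv.piFinSuccAbove (fun _ : Fin (n + 1) => ℝ) p x =
        (x p, p.removeNth x) := rfl
    rw [mem_body_iff hu l b x, Set.mem_preimage, happ, hS, Set.mem_preimage, hdot, hG]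
    rfl
  have h1 : volume (body u b) = (volume.prod volume) S := by
    rw [hbody, (volume_preserving_piFinSuccAbove (fun _ : Fin (n + 1) => ℝ) p).measure_preimage
      hSm.nullMeasurableSet, Measure.volume_eq_prod]
  have h2 : (volume.prod volume) S =
      ENNReal.ofReal |a⁻¹| * (volume.prod volume) G := by
    rw [Measure.prod_apply_symm hSm, Measure.prod_apply_symm hGc.measurableSet,
      ← lintegral_const_mul' _ _ ENNReal.ofReal_ne_top]
    refine lintegral_congr fun y => ?_
    have e : (fun s : ℝ => (s, y)) ⁻¹' S =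
        (fun s => a * s) ⁻¹' ((fun t => t + d y) ⁻¹' ((fun t => (t, y)) ⁻¹' G)) := rfl
    rw [e, Real.volume_preimage_mul_left ha0, measure_preimage_add_right]
  have h3 : (volume.prod volume) G = ∫⁻ t in Set.Icc (-b (l, false)) (b (l, true)),
      volume (body (fNormals u l) (sliceB u l t b)) := by
    rw [Measure.prod_apply hGc.measurableSet, ← lintegral_indicator measurableSet_Icc]
    refine lintegral_congr fun t => ?_
    by_cases ht : t ∈ Set.Icc (-b (l, false)) (b (l, true))
    · rw [Set.indicator_of_mem ht]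
      congr 1
      ext y
      exact ⟨fun h => h.2, fun h => ⟨ht, h⟩⟩
    · rw [Set.indicator_of_notMem ht]
      have : Prod.mk t ⁻¹' G = ∅ := Set.eq_empty_of_forall_notMem fun y h => ht h.1
      rw [this, measure_empty]
  have hu' := genPos_fNormals hu l
  have hI : IntegrableOn (fun t => vol (fNormals u l) (sliceB u l t b))
      (Set.Icc (-b (l, false)) (b (l, true))) := (continuous_slice hu hn l b).integrableOn_Icc
  have h4 : ∫⁻ t in Set.Icc (-b (l, false)) (b (l, true)),
      volume (body (fNormals u l) (sliceB u l t b)) = ENNReal.ofReal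
      (∫ t in (-b (l, false))..(b (l, true)), vol (fNormals u l) (sliceB u l t b)) := by
    rw [intervalIntegral.integral_of_le hb, ← integral_Icc_eq_integral_Ioc,
      ofReal_integral_eq_lintegral_ofReal hI (Eventually.of_forall fun t => vol_nonneg _)]
    exact lintegral_congr fun t => (ENNReal.ofReal_toReal (volume_body_ne_top hu' _)).symm
  show (volume (body u b)).toReal = _
  rw [h1, h2, h3, h4, ← ENNReal.ofReal_mul (abs_nonneg _), ENNReal.toReal_ofReal
    (mul_nonneg (abs_nonneg _) (intervalIntegral.integral_nonneg hb fun t _ => vol_nonneg _))]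
  rw [fJac, ← hp, ← ha, abs_inv]

end Vale.Agent.P227.LpN.Slab
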